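import Mathlib
import Vale.Agent.P015.FlatMoat
import Vale.Agent.P015.Curves

/-!
# The Gaussian moat problem: uniform moats across flat strips
-/

namespace Vale.Agent.Results.P015.FlatMoat

open ComplexConjugate

/-- (1) For all `D, W` there is `T` such that a path of Gaussian primes with steps at most `D`
contained in any straight strip of half-width `W` (any direction, any position) has all its
points within `T` of its first point.  (2) No infinite path of distinct Gaussian primes with
bounded steps stays within bounded vertical distance of the graph, in some orthonormal frame, of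
a function which is affine up to a bounded error on every bounded scale far from the origin. -/
theorem result :
    (∀ D W : ℝ, ∃ T : ℝ, ∀ (u c : ℂ), ‖u‖ = 1 → ∀ (m : ℕ) (z : ℕ → GaussianInt),
      (∀ i ≤ m, Prime (z i)) →
      (∀ i < m, ‖GaussianInt.toComplex (z (i + 1)) - GaussianInt.toComplex (z i)‖ ≤ D) →
      (∀ i ≤ m, |((GaussianInt.toComplex (z i) - c) * conj u).im| ≤ W) →
      ∀ i ≤ m, ‖GaussianInt.toComplex (z i) - GaussianInt.toComplex (z 0)‖ ≤ T) ∧
    (∀ (D W B : ℝ) (u c : ℂ) (f : ℝ → ℝ), ‖u‖ = 1 →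
      (∀ L : ℝ, ∃ X : ℝ, ∀ x : ℝ, X ≤ |x| → ∃ a : ℝ, ∀ h : ℝ, |h| ≤ L →
        |f (x + h) - f x - a * h| ≤ B) →
      ¬ ∃ z : ℕ → GaussianInt, Function.Injective z ∧ (∀ i, Prime (z i)) ∧
        (∀ i, ‖GaussianInt.toComplex (z (i + 1)) - GaussianInt.toComplex (z i)‖ ≤ D) ∧
        (∀ i, |((GaussianInt.toComplex (z i) - c) * conj u).im -
          f ((GaussianInt.toComplex (z i) - c) * conj u).re| ≤ W)) := by
  refine ⟨Vale.Agent.P015.flat_moat, fun D W B u c f hu hf => ?_⟩
  rintro ⟨z, h1, h2, h3, h4⟩
  exact Vale.Agent.P015.no_path_near_curve D W B u c hu f hf z h1 h2 h3 h4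

end Vale.Agent.Results.P015.FlatMoat
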