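import Vale.Agent.P015.LowComplexity.Lines

/-!
# P015: prime-free disks and moats along curves of low complexity
-/

namespace Vale.Agent.Results.P015.LowComplexityMoat

open Vale.Agent.P015.LowComplexity in
theorem result :
    (∀ D C c β R : ℝ, 0 ≤ c → 0 ≤ β → ∀ k : ℕ,
      2 * β < ∑ l ∈ Finset.range k, 1 / (∑ m ∈ Finset.range (l + 1), c ^ m) →
      ∃ N : ℕ, ∀ y : ℕ → GaussianInt, Set.InjOn y (Set.Iic N) →
        (∀ i ≤ N, ∀ j ≤ N, ‖GaussianInt.toComplex (y i) - GaussianInt.toComplex (y j)‖ ≤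
          D * |((i : ℕ) : ℝ) - ((j : ℕ) : ℝ)| ^ β) →
        (∀ n, 1 ≤ n → n ≤ N →
          ((((Finset.range (N + 1 - n)).image
            fun i => fun a : Fin (n + 1) => y (i + a) - y i).card : ℝ)) ≤ C * (n : ℝ) ^ c) →
        ∃ a ≤ N, ∀ w : GaussianInt, Prime w → (N : ℤ) < w.norm →
          R < ‖GaussianInt.toComplex w - GaussianInt.toComplex (y a)‖) ∧
    (∀ D C c β : ℝ, 0 ≤ c → 0 ≤ β → 2 * β < 1 + 1 / (c + 1) →
      ¬ ∃ z : ℕ → GaussianInt, Function.Injective z ∧ (∀ i, Prime (z i)) ∧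
        (∀ i j : ℕ, ‖GaussianInt.toComplex (z i) - GaussianInt.toComplex (z j)‖ ≤
          D * |(i : ℝ) - (j : ℝ)| ^ β) ∧
        (∀ n N : ℕ, 1 ≤ n →
          ((((Finset.range (N + 1 - n)).image
            fun i => fun a : Fin (n + 1) => z (i + a) - z i).card : ℝ)) ≤ C * (n : ℝ) ^ c)) ∧
    (∀ D C : ℝ, ¬ ∃ z : ℕ → GaussianInt, Function.Injective z ∧ (∀ i, Prime (z i)) ∧
      (∀ i, ‖GaussianInt.toComplex (z (i + 1)) - GaussianInt.toComplex (z i)‖ ≤ D) ∧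
      (∀ n N : ℕ, 1 ≤ n →
        ((((Finset.range (N + 1 - n)).image
          fun i => fun a : Fin (n + 1) => z (i + a) - z i).card : ℝ)) ≤
          C * (n : ℝ) ^ (7 / 5 : ℝ))) ∧
    (∀ D D' C W : ℝ, ¬ ∃ y z : ℕ → GaussianInt, Function.Injective y ∧
      (∀ i, ‖GaussianInt.toComplex (y (i + 1)) - GaussianInt.toComplex (y i)‖ ≤ D) ∧
      (∀ n N : ℕ, 1 ≤ n →
        ((((Finset.range (N + 1 - n)).image
          fun i => fun a : Fin (n + 1) => y (i + a) - y i).card : ℝ)) ≤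
          C * (n : ℝ) ^ (7 / 5 : ℝ)) ∧
      (∀ R : ℝ, ∃ B : ℕ, ∀ i j,
        ‖GaussianInt.toComplex (y i) - GaussianInt.toComplex (y j)‖ ≤ R → i ≤ j + B) ∧
      Function.Injective z ∧ (∀ k, Prime (z k)) ∧
      (∀ k, ‖GaussianInt.toComplex (z (k + 1)) - GaussianInt.toComplex (z k)‖ ≤ D') ∧
      (∀ k, ∃ i, ‖GaussianInt.toComplex (z k) - GaussianInt.toComplex (y i)‖ ≤ W)) ∧
    (∀ R : ℝ, ∀ c u : ℂ, u ≠ 0 → ∀ T : ℝ, ∃ t ≥ T, ∀ w : GaussianInt, Prime w →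
      R < ‖GaussianInt.toComplex w - (c + t * u)‖) :=
  ⟨fun D C c β R hc hβ k hk => exists_disk_general D C c β R hc hβ k (by rwa [total_eq]),
    fun D C c β hc hβ hk => no_path_general D C c β hc hβ 2 (by
      rw [total_eq]
      simpa [Finset.sum_range_succ, add_comm] using hk),
    no_path_low_complexity, no_path_in_corridor,
    fun R c _ hu T => disk_line R c hu T⟩

end Vale.Agent.Results.P015.LowComplexityMoat
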